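import Vale.Agent.P352X.R.EE
import Vale.Agent.P352Z.R.FAR
import Vale.Agent.P352Z.R.DD

/-!
# P352Z, row EE, part A: the defect of commutation
-/

set_option linter.all false

open MeasureTheory Filter Topology Set
open scoped SchwartzMap ComplexConjugate ContDiff

namespace Vale.Agent.P352X.ZZ.EE

open Vale.Agent.P352 Vale.Agent.P352.GF Vale.Agent.P352.BW Vale.Agent.P352.H246
open Vale.Agent.P352.H496 Vale.Agent.P352.H755 Vale.Agent.P352.H15
open Vale.Agent.P132 (jconj)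
open UniformSpace (Completion)

noncomputable section

export Vale.Agent.P352X.EE (tp di tp_apply dc_tp test_tp bar_tp tst_di tst_d pd_eq dv_eq fd_tp
  diff_tp dv_a dv_b dv_e pd_lin box_tp Dis lam lam_apply sc_a sc_b sc_e)

variable {u u' : ℝ → ℝ} {v v' : R2 → ℝ} {ρ ρ' : ℝ → ℝ} {f g : Fn}
variable {D : Type*} [NormedAddCommGroup D] [InnerProductSpace ℂ D] {c : Ctx D}

/-- `T(h, k)(f) Ω` -/
def TT (c : Ctx D) (h k : V) (f : Fn) : Completion D := c.Tv (hk h k f)

lemma dis_T (h k : V) : Dis (TT c h k) := fun f g a hf hg => by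
  simp only [TT, Far.Tv_hk c h k hf, Far.Tv_hk c h k hg, Far.Tv_hk c h k (Ap.sw_lin a hf hg),
    c.Q.lin _ f g a _ (c.Q.bose_fld _ (c.hT.bose _ _)) hf hg, Completion.coe_add,
    Completion.coe_smul, smul_add, Finset.sum_add_distrib, Finset.smul_sum, smul_comm a]

lemma dis_j (C : CUR c) (h : V) : Dis (c.jv h) := C.lin h

lemma jcons (C : CUR c) (hu : Tst u) (hv : Tst v) (hρ : Tst ρ) :
    c.jv va (tp u v (deriv ρ)) = c.jv (ex 0) (tp u (di 0 v) ρ) +
      c.jv (ex 1) (tp u (di 1 v) ρ) - c.jv vb (tp (deriv u) v ρ) := by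
  have := C.cons _ (test_tp hu hv hρ)
  simp only [dv_a hu hv hρ, dv_b hu hv hρ, dv_e _ hu hv hρ, Fin.sum_univ_two] at this
  exact eq_sub_of_add_eq (sub_eq_zero.1 this)

lemma sc_vec (G : GRP c) {h : V} {α L : ℝ} (hL : 0 < L) (e : scp L 1 h = (Real.sqrt L * α) • h) :
    sim 1 (bst va vb (Real.sqrt (L / 1) - 1) (Real.sqrt (1 / L) - 1)) 0 h = α • h :=
  smul_right_injective _ (Real.sqrt_pos.2 hL).ne' (by
    beta_reduce
    rw [smul_smul, ← e, ← (G.lsc L 1 hL one_pos).2]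
    funext n
    simp [sim])

lemma sc_j (G : GRP c) (C : CUR c) {h : V} {α L : ℝ} (hL : 0 < L)
    (e : scp L 1 h = (Real.sqrt L * α) • h) (hf : IsTest f) :
    Usc c.Q L 1 (c.jv h fun x => f (scp L 1 x)) = (((Real.sqrt L)⁻¹ * α : ℝ) : ℂ) • c.jv h f := by
  obtain ⟨hΛ, hs⟩ := G.lsc L 1 hL one_pos
  have := C.cov _ _ 0 h f (Real.sqrt_pos.2 (by positivity : 0 < L * 1)) hΛ hf
  have z : c.jv 0 f = 0 := by simpa using C.hlin 1 0 0 f hf
  have k := C.hlin α 0 h f hf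
  rw [zero_add, z, zero_add] at k
  simp only [hs] at this
  rw [Usc, this, sc_vec G hL e, k, mul_one, ← Complex.coe_smul, smul_smul, Complex.ofReal_mul]

/-- weak nullity of scaled product functions -/
lemma wn (G : GRP c) (B : BAS c) {φ : Fn → Completion D} (h : Dis φ)
    (p : ∀ f, IsTest f → inner ℂ c.Om (φ f) = 0) {a : ℝ → ℝ} (s : ∀ L > 0, ∀ f, IsTest f →
      Usc c.Q L 1 (φ fun x => f (scp L 1 x)) = (a L : ℂ) • φ f) (hu : Tst u) (hv : Tst v)
    (hρ : Tst ρ) {U : ℝ → ℝ → ℝ} {W : ℝ → R2 → ℝ} (e : ∀ L ≥ (1 : ℝ), ∀ t x,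
      U L t * W L x = a L * (u (t / L) * v ((Real.sqrt L)⁻¹ • x))) :
    WT atTop (fun L => φ (tp (U L) (W L) ρ)) 0 := fun w => by
  have := (Complex.continuous_conj.tendsto _).comp (Far.wn G B (p _ (test_tp hu hv hρ)) w)
  simp only [Function.comp_def, inner_conj_symm, map_zero] at this
  rw [inner_zero_right]
  refine this.congr' ?_
  filter_upwards [eventually_ge_atTop (1 : ℝ)] with L hL
  have L0 := one_pos.trans_le hL
  have q := Real.sqrt_pos.2 L0
  have t : IsTest (pr (kL (k3 u v) L) ρ) :=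
    Far.isTest_dc (Far.dc_pr (Far.tst_kL (Ap.cs_prod hu hv) L0) hρ)
  have e1 : (fun x => pr (kL (k3 u v) L) ρ (scp L 1 x)) = tp u v ρ := by
    funext x
    simp only [pr, kL, k3, pl_1, pl_2, al_scp, be_scp, tx_scp, mul_one, one_mul, smul_smul, tp_apply]
    rw [inv_mul_cancel₀ q.ne', one_smul, mul_div_cancel_left₀ _ L0.ne']
  rw [← e1, s L L0 _ t, ← h.smul _ t]
  congr 2
  funext z
  simp only [tp_apply, e L hL, pr, kL, k3, pl_1, pl_2]
  push_cast
  ring

lemma lam_wt {ι : Type*} {l : Filter ι} {F : ι → Completion D} (h : WT l F 0) (w w' : Completion D) :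
    Tendsto (fun i => lam w w' (F i)) l (𝓝 0) := by
  simpa [lam_apply] using (h w').sub (h.left w)

/-- `Z` commutes with the algebra of a neighbourhood of `z`, in which the potential is local -/
def Sp (c : Ctx D) (Z : Completion D →L[ℂ] Completion D) (z : V) : Prop := ∃ R ∈ 𝓝 z,
  Z ∈ (c.N R).commutant ∧ ∀ f, In R f → Pr (c.N R) c.Om (c.sg 0 f) (c.sg 0 (bar f))

variable {Z : Completion D →L[ℂ] Completion D}

lemma loc_T (G : GRP c) (a b : V) (hf : Dc f) (e : bar f = f) (h : ∀ z ∈ tsupport f, Sp c Z z) :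
    lam (Z c.Om) (star Z c.Om) (TT c a b f) = 0 := by
  have := (dis_T a b).loc (ξ := c.Om) (fun z hz => (h z hz).imp fun R k => ⟨k.1, _, k.2.1,
    fun g hg => (Pr.of_afs (G.afft R (hk a b g) fun m n => ⟨Ap.sw_cmul _ hg.1, hg.2.1.mul_left,
      tsupport_mul_subset_right.trans hg.2.2⟩) c.Q.vac).cast rfl (by
        simp only [TT, Ctx.Tv]
        congr 2
        funext m n z
        simp [hk, bar])⟩) hf le_rfl
  rw [lam_apply, this, e, sub_self]

variable [Fact c.can]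

lemma dis_v (h : V) : Dis (c.vj 0 h) := fun f g a hf hg => by
  simp only [Ctx.vj, c.Q.lin _ f g a _ ((c.hC.fam.p1 0).fld _) hf hg, Completion.coe_add,
    Completion.coe_smul, smul_add, Finset.sum_add_distrib, Finset.smul_sum, smul_comm a]

lemma loc_v (a : V) (hf : Dc f) (e : bar f = f) (h : ∀ z ∈ tsupport f, Sp c Z z) :
    lam (Z c.Om) (star Z c.Om) (c.vj 0 a f) = 0 := by
  have := (dis_v a).loc (ξ := c.Om) (fun z hz => (h z hz).imp fun R k => ⟨k.1, _, k.2.1,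
    fun g hg => Dd.pr_vj 0 a hg⟩) hf le_rfl
  rw [lam_apply, this, e, sub_self]

lemma loc_j (C : CUR c) (a : V) (hf : Dc f) (e : bar f = f) (h : ∀ z ∈ tsupport f, Sp c Z z) :
    lam (Z c.Om) (star Z c.Om) (c.jv a f) = 0 := by
  have := (dis_j C a).loc (ξ := c.Om) (fun z hz => (h z hz).imp fun R k => ⟨k.1, _, k.2.1,
    fun g hg => by
      rw [Ctx.jv_eq, Ctx.jv_eq, Dd.dv_bar' hg.1]
      exact (Dd.pr_vj 0 a hg).add (k.2.2 _ (Ap.in_dv a hg))⟩) hf le_rfl
  rw [lam_apply, this, e, sub_self]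

/-- the relation between the two tensors -/
lemma rel (h k : V) (hf : IsTest f) : TT c h k f = TT (c.toS 0) h k f -
    (1 / 3 : ℝ) • c.vj 0 h (dv k f) + (mdot h k / 3) • (c.vj 0 va (dv vb f) + c.vj 0 vb (dv va f) -
      c.vj 0 (ex 0) (dv (ex 0) f) - c.vj 0 (ex 1) (dv (ex 1) f)) := by
  have e : ∀ y m, c.Vj 0 m (dv y f) c.Q.vac = ∑ k, (y k : ℂ) • c.Vj 0 m (pd k f) c.Q.vac :=
    fun y m => Grp.fld_sum ((c.hC.fam.p1 0).fld m) _ _ (fun k => Grp.test_pd k hf) _
  rw [TT, TT, Far.Tv_hk c h k hf, Far.Tv_hk _ h k hf]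
  simp only [c.hC.rel 0 _ _ f _ hf, improveJ, fam1, Two.ex0_zero, Ctx.vj, e, Ev.coe_sum,
    Completion.coe_add, Completion.coe_sub, Completion.coe_smul, ← Complex.coe_smul]
  simp [Fin.sum_univ_four, va, vb, ex, tv, pt, P352X.e2, eta, o, bas, GF.mdot]
  module

lemma asy (h k : V) (hf : IsTest f) :
    TT c h k f = TT c k h f + (1 / 3 : ℝ) • (c.jv k (dv h f) - c.jv h (dv k f)) := by
  have s : TT (c.toS 0) h k f = TT (c.toS 0) k h f := by
    rw [TT, TT, Far.Tv_hk _ h k hf, Far.Tv_hk _ k h hf, Finset.sum_comm]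
    refine Finset.sum_congr rfl fun m _ => Finset.sum_congr rfl fun n _ => ?_
    rw [(c.toS 0).hP.symm n m f _ hf, mul_comm]
  rw [rel h k hf, rel k h hf, s, Ctx.jv_eq, Ctx.jv_eq, md_comm h k,
    funext (Ap.dv_comm (Ap.sw_smooth hf) h k)]
  module

lemma trace (hf : IsTest f) :
    TT c (ex 0) (ex 0) f + TT c (ex 1) (ex 1) f = TT c va vb f + TT c vb va f := by
  have := congrArg (fun x : D => (x : Completion D)) (c.ct0.trace f c.Q.vac hf)
  simp only [GF.tr, Ev.coe_sum, Completion.coe_smul, Completion.coe_zero] at this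
  simp only [TT, Far.Tv_hk c _ _ hf]
  simp [Fin.sum_univ_four, va, vb, ex, tv, pt, P352X.e2, eta, o] at this ⊢
  linear_combination (norm := module) -this

lemma cons (G : GRP c) (h : V) (hu : Tst u) (hv : Tst v) (hρ : Tst ρ) :
    TT c va h (tp u v (deriv ρ)) = TT c (ex 0) h (tp u (di 0 v) ρ) +
      TT c (ex 1) h (tp u (di 1 v) ρ) - TT c vb h (tp (deriv u) v ρ) := by
  have := congrArg (fun x : D => (x : Completion D)) (G.cons h _ c.Q.vac (test_tp hu hv hρ))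
  simp only [dv_a hu hv hρ, dv_b hu hv hρ, dv_e _ hu hv hρ, Fin.sum_univ_two, Completion.coe_sub,
    Completion.coe_add, Completion.coe_zero] at this
  exact eq_sub_of_add_eq (sub_eq_zero.1 this)

lemma sc_T (G : GRP c) {h k : V} {α β L : ℝ} (hL : 0 < L)
    (e1 : scp L 1 h = (Real.sqrt L * α) • h) (e2 : scp L 1 k = (Real.sqrt L * β) • k)
    (hf : IsTest f) :
    Usc c.Q L 1 (TT c h k fun x => f (scp L 1 x)) = ((α * β : ℝ) : ℂ) • TT c h k f := by
  obtain ⟨hΛ, hs⟩ := G.lsc L 1 hL one_pos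
  have hq : 0 < Real.sqrt (L * 1) := Real.sqrt_pos.2 (by positivity)
  have := G.ten _ _ 0 h k _ c.Q.vac hq hΛ hf
  simp only [hs] at this
  rw [sc_vec G hL e1, sc_vec G hL e2, c.Q.U_vac _ _ _ hq hΛ] at this
  rw [TT, Ctx.Tv, Usc, G.coe _ _ _ _ hq hΛ, this]
  change c.Tv _ = _
  rw [TT, Far.Tv_hk c _ _ hf, Far.Tv_hk c _ _ hf, Finset.smul_sum]
  refine Finset.sum_congr rfl fun m _ => ?_
  rw [Finset.smul_sum]
  refine Finset.sum_congr rfl fun n _ => ?_
  rw [smul_smul, ← Complex.ofReal_mul]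
  congr 2
  simp only [Pi.smul_apply, smul_eq_mul]
  ring

end

end Vale.Agent.P352X.ZZ.EE
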