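import Vale.Agent.P352Z.R.EE.G

/-!
# P352Z, row EE, part B: the second moment of the null energy, twice differentiated
-/

set_option linter.all false

open MeasureTheory Filter Topology Set
open scoped SchwartzMap ComplexConjugate ContDiff

namespace Vale.Agent.P352X.ZZ.EE

open Vale.Agent.P352 Vale.Agent.P352.GF Vale.Agent.P352.BW Vale.Agent.P352.H246
open Vale.Agent.P352.H496 Vale.Agent.P352.H755 Vale.Agent.P352.H15
open Vale.Agent.P132 (jconj)
open UniformSpace (Completion)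

noncomputable section

export Vale.Agent.P352X.EE (kp chi sm_kp sm_chi kp1 kp0 chi1 chi0 der0 dkp1 dkp0 dchi1 dchi0
  tst_of sm_d tst_dkp tst_dchi uL fL vL uL_ne tst_uL tst_fL der_kp der_uL vL1 tst_vL vL_sc di0
  tst_q tst_x di_x di_q)

variable {t A L M : ℝ} {x : R2}
variable {D : Type*} [NormedAddCommGroup D] [InnerProductSpace ℂ D] {c : Ctx D}
  {u ρ : ℝ → ℝ} {v : R2 → ℝ}

/-- admissible distributions -/
structure Ad (c : Ctx D) (Z : Completion D →L[ℂ] Completion D) (φ : Fn → Completion D)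
    (a : ℝ → ℝ) : Prop where
  dis : Dis φ
  perp : ∀ f, IsTest f → inner ℂ c.Om (φ f) = 0
  sc : ∀ L > 0, ∀ f, IsTest f → Usc c.Q L 1 (φ fun x => f (scp L 1 x)) = (a L : ℂ) • φ f
  loc : ∀ f, Dc f → bar f = f → (∀ z ∈ tsupport f, Sp c Z z) →
    lam (Z c.Om) (star Z c.Om) (φ f) = 0

variable {Z : Completion D →L[ℂ] Completion D} {φ : Fn → Completion D} {a : ℝ → ℝ} {u0 : ℝ}

/-- the defect vanishes near the part `Gm` of the slab -/
def Sl (c : Ctx D) (Z : Completion D →L[ℂ] Completion D) (u0 A : ℝ) : Prop :=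
  ∀ L ≥ A + 1, ∀ z, |be z| ≤ u0 → Gm A L (al z) (tx z) → Sp c Z z

lemma Sl.sp (S : Sl c Z u0 A) (hL : A + 1 ≤ L) (hρ : ∀ t, ρ t ≠ 0 → |t| ≤ u0)
    (h : ∀ t x, u t ≠ 0 → v x ≠ 0 → Gm A L t x) : ∀ z ∈ tsupport (tp u v ρ), Sp c Z z :=
  fun z hz => by
  have := Ap.tsupp_sub (K := {z | |be z| ≤ u0 ∧ Gm A L (al z) (tx z)}) (f := tp u v ρ) (by
    simp only [Gm, setOf_and, setOf_or]
    refine IsClosed.inter ?_ (IsClosed.union ?_ (IsClosed.inter ?_ (IsClosed.inter ?_ ?_))) <;>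
      exact isClosed_le (by fun_prop) (by fun_prop)) (fun z k => by
    simp only [tp_apply, ne_eq, Complex.ofReal_eq_zero, mul_eq_zero, not_or] at k
    exact ⟨hρ _ k.2, h _ _ k.1.1 k.1.2⟩) hz
  exact S L hL z this.1 this.2

/-- families on which the defect tends to zero -/
def Nul (c : Ctx D) (Z : Completion D →L[ℂ] Completion D) (F : ℝ → Completion D) : Prop :=
  Tendsto (fun L => lam (Z c.Om) (star Z c.Om) (F L)) atTop (𝓝 0)

/-- transverse fluxes -/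
lemma nul_x (S : Sl c Z u0 A) (hA : 0 < A)
    (h : ∀ f, Dc f → bar f = f → (∀ z ∈ tsupport f, Sp c Z z) →
      lam (Z c.Om) (star Z c.Om) (φ f) = 0) (hρ : Tst ρ) (r : ∀ t, ρ t ≠ 0 → |t| ≤ u0)
    {W : ℝ → R2 → ℝ} (hW : ∀ L > 0, Tst (W L)) (w : ∀ L > 0, ∀ x, d2 x x < 32 * A * L → W L x = 0) :
    Nul c Z fun L => φ (tp (uL L) (W L) ρ) := by
  refine tendsto_const_nhds.congr' ?_
  filter_upwards [eventually_ge_atTop (A + 1)] with L hL
  have L0 : 0 < L := by linarith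
  exact (h _ (dc_tp (tst_uL L0) (hW L L0) hρ) bar_tp (S.sp hL r fun t x a b => .inr
    ⟨(uL_ne L0 a).1, (uL_ne L0 a).2, not_lt.1 fun k => b (w L L0 x k)⟩)).symm

/-- far faces -/
lemma nul_f (G : GRP c) (B : BAS c) (h : Ad c Z φ a) (hρ : Tst ρ) {W : ℝ → R2 → ℝ} (hv : Tst v)
    (e : ∀ L > (0 : ℝ), ∀ x, L⁻¹ * W L x = a L * v ((Real.sqrt L)⁻¹ • x)) :
    Nul c Z fun L => φ (tp (fL L) (W L) ρ) :=
  lam_wt (wn G B h.dis h.perp h.sc tst_dkp hv hρ fun L hL t x => by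
    rw [fL, mul_right_comm, e L (one_pos.trans_le hL)]
    ring) _ _

/-- the edge -/
lemma nul_c (S : Sl c Z u0 A) (h : ∀ f, Dc f → bar f = f → (∀ z ∈ tsupport f, Sp c Z z) →
      lam (Z c.Om) (star Z c.Om) (φ f) = 0) (hρ : Tst ρ) (r : ∀ t, ρ t ≠ 0 → |t| ≤ u0)
    (hL : A + 1 ≤ L) (hv : Tst v) : lam (Z c.Om) (star Z c.Om) (φ (tp (deriv chi) v ρ)) = 0 :=
  h _ (dc_tp tst_dchi hv hρ) bar_tp (S.sp hL r fun t x a _ => .inl (abs_le.2
    ⟨by_contra fun k => a (dchi0 (by linarith)), by_contra fun k => a (dchi1 (by linarith))⟩))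

/-- longitudinal fluxes -/
lemma nul_a (G : GRP c) (B : BAS c) (S : Sl c Z u0 A) (hA : 0 < A) (h : Ad c Z φ a) (hρ : Tst ρ)
    (r : ∀ t, ρ t ≠ 0 → |t| ≤ u0) {W : ℝ → R2 → ℝ} (hW : ∀ L > 0, Tst (W L)) (hv : Tst v)
    (e : ∀ L > (0 : ℝ), ∀ x, L⁻¹ * W L x = a L * v ((Real.sqrt L)⁻¹ • x)) :
    Nul c Z fun L => φ (tp (deriv (uL L)) (W L) ρ) := by
  refine Tendsto.congr' ?_ (nul_f G B h hρ hv e)
  filter_upwards [eventually_ge_atTop (A + 1)] with L hL
  have L0 : 0 < L := by linarith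
  rw [h.dis.tp (U := deriv (uL L)) 1 tst_dchi (hW L L0) (tst_fL L0) (hW L L0) hρ fun t x => by
    rw [der_uL (by linarith)]; ring, map_add, one_smul, nul_c S h.loc hρ r hL (hW L L0), zero_add]

variable [Fact c.can]

lemma ad_j (G : GRP c) (C : CUR c) {h : V} {α : ℝ → ℝ}
    (e : ∀ L > 0, scp L 1 h = (Real.sqrt L * α L) • h) :
    Ad c Z (c.jv h) fun L => (Real.sqrt L)⁻¹ * α L :=
  ⟨dis_j C h, C.perp h, fun L hL _ => sc_j G C hL (e L hL), fun _ => loc_j C h⟩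

lemma ad_T (G : GRP c) {h k : V} {α β : ℝ → ℝ}
    (e1 : ∀ L > 0, scp L 1 h = (Real.sqrt L * α L) • h)
    (e2 : ∀ L > 0, scp L 1 k = (Real.sqrt L * β L) • k) : Ad c Z (TT c h k) fun L => α L * β L :=
  ⟨dis_T h k, fun _ => Far.perp_Tv G h k, fun L hL _ => sc_T G hL (e1 L hL) (e2 L hL),
    fun _ => loc_T G h k⟩

lemma step1 (G : GRP c) (C : CUR c) (i : Fin 2) (hu : Tst u) (hv : Tst v) (hρ : Tst ρ) :
    TT c (ex i) va (tp u (di i fun x => d2 x x * v x) (deriv ρ)) =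
      TT c (ex i) va (tp u (fun x => d2 x x * di i v x) (deriv ρ)) + (2 : ℝ) •
        (TT c (ex i) (ex i) (tp u v ρ) + TT c (ex 0) (ex i) (tp u (fun x => x i * di 0 v x) ρ) +
          TT c (ex 1) (ex i) (tp u (fun x => x i * di 1 v x) ρ) -
          TT c vb (ex i) (tp (deriv u) (fun x => x i * v x) ρ) + (1 / 3 : ℝ) •
            (c.jv va (tp u (fun x => x i * di i v x) (deriv ρ)) + c.jv va (tp u v (deriv ρ)) -
              c.jv (ex i) (tp (deriv u) (fun x => x i * v x) (deriv ρ)))) := by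
  have e : ∀ j, TT c (ex j) (ex i) (tp u (di j fun x => x i * v x) ρ) =
      TT c (ex j) (ex i) (tp u (fun x => x i * di j v x) ρ) + e2 j i • TT c (ex j) (ex i) (tp u v ρ) :=
    fun j => (dis_T _ _).tp _ hu (tst_x i (tst_di j hv)) hu hv hρ fun t x => by
      rw [di_x hv]
      ring
  rw [(dis_T _ _).tp 2 hu (tst_q (tst_di i hv)) hu (tst_x i hv) (tst_d hρ) fun t x => by
    rw [di_q hv]; ring, asy (ex i) va (test_tp hu (tst_x i hv) (tst_d hρ)),
    cons G _ hu (tst_x i hv) hρ, e, e, dv_a hu (tst_x i hv) (tst_d hρ),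
    dv_e i hu (tst_x i hv) (tst_d hρ), (dis_j C va).tp (W := di i fun x => x i * v x) 1 hu
      (tst_x i (tst_di i hv)) hu hv (tst_d hρ) fun t x => by
        rw [di_x hv]
        fin_cases i <;> simp [e2, mul_add]]
  fin_cases i <;> simp [e2] <;> abel

theorem nul_main (G : GRP c) (C : CUR c) (B : BAS c) (S : Sl c Z u0 A) (hA : 0 < A) (hρ : Tst ρ)
    (r : tsupport ρ ⊆ Icc (-u0) u0) : Nul c Z fun L =>
      TT c va va (tp (uL L) (fun x => d2 x x * vL (32 * A * L) x) (deriv (deriv ρ))) -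
        (4 : ℝ) • TT c va vb (tp (uL L) (vL (32 * A * L)) ρ) := by
  have r0 : ∀ t, ρ t ≠ 0 → |t| ≤ u0 := fun t h => abs_le.2 (r (subset_tsupport _ h))
  have r1 : ∀ t, deriv ρ t ≠ 0 → |t| ≤ u0 := fun t h => abs_le.2 (r (support_deriv_subset h))
  have p : ∀ L > (0 : ℝ), 0 < 32 * A * L := fun L hL => by positivity
  have tv : ∀ L > (0 : ℝ), Tst (vL (32 * A * L)) := fun L hL => tst_vL (p L hL)
  have t0 : Tst (vL (32 * A)) := tst_vL (by positivity)
  have z : ∀ i, ∀ L > (0 : ℝ), ∀ x, d2 x x < 32 * A * L → di i (vL (32 * A * L)) x = 0 :=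
    fun i L hL => di0 i fun x => vL1 (p L hL)
  have s : ∀ L > (0 : ℝ), Real.sqrt L ≠ 0 := fun L hL => (Real.sqrt_pos.2 hL).ne'
  have f1 := nul_a G B S hA (ad_T G (fun _ => sc_b) fun _ => sc_a) (tst_d hρ) r1
    (fun L hL => tst_q (tv L hL)) (tst_q t0) fun L hL x => by
      rw [vL_sc hL, inv_mul_cancel₀ (s L hL), d2_smul, d2_smul_l, ← mul_assoc _ _ (d2 x x),
        ← mul_inv, Real.mul_self_sqrt hL.le, one_mul, mul_assoc (L⁻¹)]
  have f2 := fun i => nul_a G B S hA (ad_T G (fun _ => sc_b) fun L _ => sc_e L i) hρ r0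
    (fun L hL => tst_x i (tv L hL)) (tst_x i t0) fun L hL x => by
      rw [vL_sc hL, mul_one, Pi.smul_apply, smul_eq_mul, ← mul_assoc, ← mul_assoc, ← mul_assoc,
        ← mul_inv, Real.mul_self_sqrt hL.le]
  have f3 := nul_a G B S hA (ad_j G C fun _ => sc_b) hρ r0 tv t0 fun L hL x => by
    rw [vL_sc hL, ← mul_inv, Real.mul_self_sqrt hL.le]
  have f4 := fun i => nul_a G B S hA (ad_j G C fun L _ => sc_e L i) (tst_d hρ) r1
    (fun L hL => tst_x i (tv L hL)) (tst_x i t0) fun L hL x => by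
      rw [vL_sc hL, mul_one, Pi.smul_apply, smul_eq_mul, ← mul_assoc, ← mul_assoc, ← mul_assoc,
        ← mul_inv, Real.mul_self_sqrt hL.le]
  have g1 := fun i => nul_x S hA (fun _ => loc_T G (ex i) va) (tst_d hρ) r1
    (fun L hL => tst_q (tst_di i (tv L hL))) fun L hL x hx => by rw [z i L hL x hx, mul_zero]
  have g2 := fun i j => nul_x S hA (fun _ => loc_T G (ex j) (ex i)) hρ r0
    (fun L hL => tst_x i (tst_di j (tv L hL))) fun L hL x hx => by rw [z j L hL x hx, mul_zero]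
  have g3 := fun i => nul_x S hA (fun _ => loc_j C (ex i)) hρ r0
    (fun L hL => tst_di i (tv L hL)) (z i)
  have g4 := fun i => nul_x S hA (fun _ => loc_j C va) (tst_d hρ) r1
    (fun L hL => tst_x i (tst_di i (tv L hL))) fun L hL x hx => by rw [z i L hL x hx, mul_zero]
  have := (((g1 0).add (g1 1)).sub f1).add (((((((g2 0 0).add (g2 0 1)).sub (f2 0)).add
    (((g2 1 0).add (g2 1 1)).sub (f2 1))).add (((((g4 0).sub (f4 0)).add ((g4 1).sub (f4 1))).sub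
      f3).const_smul (1 / 3 : ℝ))).add (((g3 0).add (g3 1)).sub f3)).const_smul (2 : ℝ))
  simp only [add_zero, sub_zero, smul_zero] at this
  refine this.congr' ?_
  filter_upwards [eventually_gt_atTop (0 : ℝ)] with L hL
  simp only [← map_add, ← map_sub, ← map_smul]
  congr 1
  have a := asy (c := c) vb va (test_tp (tst_uL hL) (tv L hL) hρ)
  rw [dv_a (tst_uL hL) (tv L hL) hρ, dv_b (tst_uL hL) (tv L hL) hρ] at a
  rw [cons G _ (tst_uL hL) (tst_q (tv L hL)) (tst_d hρ), step1 G C _ (tst_uL hL) (tv L hL) hρ,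
    step1 G C _ (tst_uL hL) (tv L hL) hρ]
  linear_combination (norm := module) (-2 : ℝ) • trace (c := c) (test_tp (tst_uL hL) (tv L hL) hρ) -
    (2 : ℝ) • a - (2 : ℝ) • jcons C (tst_uL hL) (tv L hL) hρ

end

end Vale.Agent.P352X.ZZ.EE
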