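import Vale.Agent.P352Z.R.EE.B

/-!
# P352Z, row EE, part F: the Ward identity for `P_b`, and the key identity
-/

set_option linter.all false

open MeasureTheory Filter Topology Set
open scoped SchwartzMap ComplexConjugate ContDiff

namespace Vale.Agent.P352X.ZZ.EE

open Vale.Agent.P352 Vale.Agent.P352.GF Vale.Agent.P352.BW Vale.Agent.P352.H246
open Vale.Agent.P352.H496 Vale.Agent.P352.H755 Vale.Agent.P352.H15
open Vale.Agent.P132 (jconj)
open UniformSpace (Completion)

noncomputable section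

export Vale.Agent.P352X.EE (sg sg1 sg0 tst_sg Xi ch chg dR tst_dR dens_eq)

variable {D : Type*} [NormedAddCommGroup D] [InnerProductSpace ℂ D] {c : Ctx D}
  {X X' : Completion D →L[ℂ] Completion D} {u0 A L t : ℝ} {R : ℝ → ℝ} {k : Completion D}

lemma der_ts (h0 : 0 ≤ u0) (hA : 2 * u0 + 10 ≤ A) (hR : ContDiff ℝ ∞ R)
    (R0 : ∀ t ≤ -u0, R t = 0) (R1 : ∀ t ≥ u0, R t = 1) (t : ℝ) :
    deriv (fun t => (1 - R t) * sg u0 A t) t = (1 - R t) * deriv (sg u0 A) t - deriv R t := by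
  rw [show deriv (fun t => (1 - R t) * sg u0 A t) t = _ from ((((hR.differentiable (by simp)
    t).hasDerivAt).const_sub 1).mul (tst_sg.diff t).hasDerivAt).deriv]
  by_cases h : deriv R t = 0
  · simp [h]
  · rw [sg1 (by linarith [(dR R0 R1 _ h).1]) (by linarith [(dR R0 R1 _ h).2])]
    ring

lemma low (R1 : ∀ t ≥ u0, R t = 1) (h : (1 - R t) * deriv (sg u0 A) t ≠ 0) : t ≤ -A - 2 :=
  not_lt.1 fun k => right_ne_zero_of_mul h (der0 (mem_of_superset (Ioo_mem_nhds k (show t < u0 + 1 / 2 by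
    linarith [not_le.1 fun j => left_ne_zero_of_mul h (sub_eq_zero.2 (R1 t j).symm)]))
      fun s j => sg1 j.1.le j.2.le))

variable [Fact c.can]

/-- the corner below the double cones -/
lemma corner (J : JC c) (hA : 10 ≤ A) (hX : X ∈ c.N (dc (pt (3 * A) (-A) 0) 1))
    (hX' : X' ∈ c.N (dc (pt A (-A) 0) 1)) (hL : 4 * A ≤ L) {v : R2 → ℝ} {ρ : ℝ → ℝ} (hv : Tst v)
    (hρ : Tst ρ) (r : ∀ t, ρ t ≠ 0 → t ≤ -A - 2) (h : V) :
    lam ((jconj c.J X' * X) c.Om) (star (jconj c.J X' * X) c.Om) (c.vj 0 h (tp (fL L) v ρ)) = 0 := by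
  have L0 : 0 < L := by linarith
  have d := dc_tp (tst_fL L0) hv hρ
  have p := Dd.pr_vj (c := c) 0 h (O := {z | be z < -A - 3 / 2 ∧ 3 * A + 1 < al z})
    ⟨Far.isTest_dc d, d.2, (Ap.tsupp_sub (K := {z | be z ≤ -A - 2 ∧ L ≤ al z})
      ((isClosed_le cont_be continuous_const).inter (isClosed_le continuous_const cont_al))
      fun z k => by
        simp only [tp_apply, ne_eq, Complex.ofReal_eq_zero, mul_eq_zero, not_or, fL] at k
        exact ⟨r _ k.2, (one_le_div L0).1 (not_lt.1 (mt dkp1 k.1.1.2))⟩).trans fun z k =>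
      ⟨by linarith [k.1], by linarith [k.2]⟩⟩ _
    (mul_mem (comm_Y J hX' null_vb null_va (by simp [md_vb]) (s := 3 * A + 1) (t := -A - 3 / 2)
      (fun z hz => by
        rw [md_va, md_vb, al_jr, be_jr]
        exact ⟨by linarith [(abs_le.1 (dc_Bx' hz).1).1], by linarith [(abs_le.1 (dc_Bx' hz).2.1).2]⟩)
      fun z hz => hz) (comm_X J hX null_vb null_va (by simp [md_vb]) (fun z hz => by
        rw [md_va, md_vb]
        exact ⟨by linarith [(abs_le.1 (dc_Bx' hz).1).2], by linarith [(abs_le.1 (dc_Bx' hz).2.1).1]⟩)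
      fun z hz => hz))
  rw [lam_apply, p, bar_tp, sub_self]

theorem ward (T : T2 c) (S : Sl c (jconj c.J X' * X) u0 A) (h0 : 0 ≤ u0) (hA : 2 * u0 + 10 ≤ A)
    (hX : X ∈ c.N (dc (pt (3 * A) (-A) 0) 1)) (hX' : X' ∈ c.N (dc (pt A (-A) 0) 1))
    (hk : Gn (Pb c.Q) (X c.Om) k) (hR : ContDiff ℝ ∞ R) (R0 : ∀ t ≤ -u0, R t = 0)
    (R1 : ∀ t ≥ u0, R t = 1) :
    Tendsto (fun L => lam ((jconj c.J X' * X) c.Om) (star (jconj c.J X' * X) c.Om)
      (TT c va vb (tp (uL L) (vL (32 * A * L)) (deriv R)))) atTop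
      (𝓝 (-inner ℂ (star (jconj c.J X') c.Om) k)) := by
  have A0 : 0 < A := by linarith
  have ts : Tst fun t => (1 - R t) * sg u0 A t := Ap.cs_mul_l (contDiff_const.sub hR) tst_sg
  have f := nul_f (Z := jconj c.J X' * X) T.grp T.bas (ad_T T.grp (fun _ => sc_b) fun _ => sc_b) ts
    (W := fun L => vL (32 * A * L)) (tst_vL (M := 32 * A) (by positivity)) fun L hL x => by
      rw [vL_sc hL, ← mul_inv, Real.mul_self_sqrt hL.le]
  have w : ∀ z, z ∈ Wdg va vb (pt (-1) (u0 + 2) 0) ↔ be z < u0 + 2 ∧ -1 < al z := fun z => by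
    simp only [Wdg, mem_setOf_eq, md_va, md_vb, be_sub, al_sub, be_pt, al_pt, sub_neg, sub_pos]
  have s : dc (pt (3 * A) (-A) 0) 1 ⊆ Wdg va vb (pt (-1) (u0 + 2) 0) := fun z hz => (w z).2
    ⟨by linarith [(abs_le.1 (dc_Bx' hz).2.1).2], by linarith [(abs_le.1 (dc_Bx' hz).1).1]⟩
  have y := comm_Y T.jc hX' null_vb null_va (by simp [md_vb]) (s := -1) (t := u0 + 2)
    (fun z hz => by
      rw [md_va, md_vb, al_jr, be_jr]
      exact ⟨by linarith [(abs_le.1 (dc_Bx' hz).1).1], by linarith [(abs_le.1 (dc_Bx' hz).2.1).2]⟩)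
    fun z hz => (w z).1 hz
  have r0 : ∀ t, deriv R t ≠ 0 → |t| ≤ u0 := fun t h => abs_le.2 (dR R0 R1 t h)
  have g := fun i => nul_x S A0 (fun _ => loc_v (ex i)) (tst_dR hR R0 R1) r0
    (W := fun L => di i (vL (32 * A * L))) (fun L hL => tst_di i (tst_vL (by positivity)))
    fun L hL => di0 i fun x => vL1 (by positivity)
  have := (f.sub_const (inner ℂ (star (jconj c.J X') c.Om) k)).sub
    (((g 0).add (g 1)).const_smul (1 / 3 : ℝ))
  rw [zero_sub, add_zero, smul_zero, sub_zero] at this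
  refine this.congr' ?_
  filter_upwards [eventually_ge_atTop (4 * A)] with L hL
  have L0 : 0 < L := by linarith
  have tv : Tst (vL (32 * A * L)) := tst_vL (by positivity)
  have t1 := test_tp (tst_uL L0) tv (tst_dR hR R0 R1)
  have t2 := test_tp (tst_fL L0) tv ts
  have p := T.f2l 0 _ 1 va vb _ _ _ (fun _ => GF.one) (fun e => e • vb) (fun _ => vb) X k one_pos
    null_va null_vb (by simp [md_va]) hX (chg h0 hA hL hR R0 R1) s
    ((Ap.tsupp_sub (K := {z | be z ≤ u0 + 1 ∧ -1 / 2 ≤ al z})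
      ((isClosed_le cont_be continuous_const).inter (isClosed_le continuous_const cont_al))
      fun z h => ⟨not_lt.1 fun k => right_ne_zero_of_mul h (sg0 k), (uL_ne (by linarith)
        (left_ne_zero_of_mul (left_ne_zero_of_mul h))).1⟩).trans fun z h => (w z).2
      ⟨by linarith [h.1], by linarith [h.2]⟩) rfl (zero_smul _ _) (fun _ => H496.isLor_one)
    (fun n z => by
      simpa [sim, GF.one, bas] using (hasDerivAt_id (0 : ℝ)).mul_const (vb n)) hk _ y
  have e : (c.toS 0).Tv (dens (ch u0 A L) (Xi R L) fun _ => vb) =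
      TT (c.toS 0) va vb (tp (uL L) (vL (32 * A * L)) (deriv R)) -
        TT (c.toS 0) vb vb (tp (fL L) (vL (32 * A * L)) fun t => (1 - R t) * sg u0 A t) := by
    have q := fun m n => (congrArg (fun f => (c.toS 0).T m n f c.Q.vac)
      (dens_eq h0 hA hL hR R0 R1 m n)).trans (c.Q.lin _ _ _ _ _ (Ev.fld (c.toS 0) m n)
        (Ap.sw_cmul _ t1) (Ap.sw_cmul _ t2))
    dsimp only at q
    simp only [TT, Ctx.Tv, Ctx.Tf, q, neg_smul, one_smul, ← sub_eq_add_neg, Finset.sum_sub_distrib,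
      Completion.coe_sub]
  have t3 : Tst fun t => (1 - R t) * deriv (sg u0 A) t :=
    Ap.cs_mul_l (contDiff_const.sub hR) (tst_d tst_sg)
  have e1 := rel (c := c) va vb t1
  have e2 := rel (c := c) vb vb t2
  have e3 := dis_v (c := c) vb _ _ (-1) (test_tp (tst_fL L0) tv t3)
    (test_tp (tst_fL L0) tv (tst_dR hR R0 R1))
  rw [dv_a (tst_uL L0) tv (tst_dR hR R0 R1), dv_e 0 (tst_uL L0) tv (tst_dR hR R0 R1),
    dv_e 1 (tst_uL L0) tv (tst_dR hR R0 R1), md_ab, (dis_v vb).tp (U := deriv (uL L)) 1 tst_dchi tv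
      (tst_fL L0) tv (tst_dR hR R0 R1) fun t x => by rw [der_uL (by linarith)]; ring] at e1
  rw [null_vb.1, zero_div, zero_smul, add_zero, dv_b (tst_fL L0) tv ts,
    (congrArg (c.vj 0 vb) (funext fun z => by
      simp only [tp_apply, der_ts h0 hA hR R0 R1]
      push_cast
      ring)).trans e3] at e2
  have e4 : TT c va vb (tp (uL L) (vL (32 * A * L)) (deriv R)) =
      (c.toS 0).Tv (dens (ch u0 A L) (Xi R L) fun _ => vb) +
      TT c vb vb (tp (fL L) (vL (32 * A * L)) fun t => (1 - R t) * sg u0 A t) + (1 / 3 : ℝ) •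
        (c.vj 0 vb (tp (deriv chi) (vL (32 * A * L)) (deriv R)) + c.vj 0 vb (tp (fL L)
          (vL (32 * A * L)) fun t => (1 - R t) * deriv (sg u0 A) t) -
          (c.vj 0 (ex 0) (tp (uL L) (di 0 (vL (32 * A * L))) (deriv R)) +
            c.vj 0 (ex 1) (tp (uL L) (di 1 (vL (32 * A * L))) (deriv R)))) := by
    rw [e, e1, e2]
    module
  rw [inner_add_right, star_inner X, comm_apply (c.hN.mono _ _ s X hX) y, ← star_inner X] at p
  rw [e4, map_add, map_add, map_smul, map_sub, map_add, map_add,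
    nul_c S (fun _ => loc_v vb) (tst_dR hR R0 R1) r0 (by linarith) tv,
    corner T.jc (by linarith) hX hX' hL tv t3 (fun _ => low R1), lam_apply _ _ (Ctx.Tv _ _), star_mul,
    ContinuousLinearMap.mul_apply, ContinuousLinearMap.mul_apply, ← p]
  simp only [zero_add, zero_sub, smul_neg]
  ring

theorem key (T : T2 c) (bb : BB c) (dd : DD c) (h0 : 0 ≤ u0) (hA : 2 * u0 + 10 ≤ A)
    (hX : X ∈ c.N (dc (pt (3 * A) (-A) 0) 1)) (gX : c.Good X)
    (hX' : X' ∈ c.N (dc (pt A (-A) 0) 1)) (gX' : c.Good X')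
    (hk : Gn (Pb c.Q) (X c.Om) k) (hR : ContDiff ℝ ∞ R) (R0 : ∀ t ≤ -u0, R t = 0)
    (R1 : ∀ t ≥ u0, R t = 1) :
    ∫ u, ((deriv (deriv (deriv R)) u : ℝ) : ℂ) * inner ℂ (star (jconj c.J X') c.Om)
      (gen (c.Ky (u • vb)) (X c.Om)) = 4 * inner ℂ (star (jconj c.J X') c.Om) k := by
  have A0 : 0 < A := by linarith
  have t1 := tst_dR hR R0 R1
  have t3 := tst_d (tst_d t1)
  have s1 : tsupport (deriv R) ⊆ Icc (-u0) u0 := Ap.tsupp_sub isClosed_Icc (dR R0 R1)
  have tk : Tst fun t => kp t * kp (-t) := tst_of (by fun_prop) (-2) 2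
    (fun t h => by rw [kp0 (t := -t) (by linarith), mul_zero]) fun t h => by rw [kp0 h.le, zero_mul]
  have t0 : Tst (vL (32 * A)) := tst_vL (by positivity)
  have b := bb (u0 + 1) 1 _ 1 _ 1 X X' chi (k3 (fun t => kp t * kp (-t)) (vL (32 * A))) _ 0 one_pos
    one_pos one_pos (fun z hz => ⟨by linarith [(abs_le.1 (dc_Bx' hz).2.1).2],
      by linarith [(abs_le.1 (dc_Bx' hz).1).1]⟩) (fun z hz => ⟨by
      linarith [(abs_le.1 (dc_Bx' hz).2.1).2], by linarith [(abs_le.1 (dc_Bx' hz).1).1]⟩)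
    hX gX hX' gX' sm_chi (fun _ => chi0) (fun _ => chi1) ⟨Ap.cs_prod tk t0, by
      filter_upwards [continuous_fst.continuousAt.eventually (Ioo_mem_nhds neg_one_lt_zero one_pos),
        (by fun_prop : Continuous fun y : P3 => d2 y.2 y.2).continuousAt.eventually
        (eventually_lt_nhds (b := 32 * A) (by simpa using A0))] with y y1 y2
      rw [k3, kp1 y1.2.le, kp1 (by linarith [y1.1]), vL1 (by positivity) y2]
      norm_num⟩ t3 ((tsupport_deriv_subset.trans (tsupport_deriv_subset.trans s1)).trans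
      (Icc_subset_Ioo (by linarith) (by linarith)))
  simp only [tv_zero, zero_add, sub_zero] at b
  have w := (wn T.grp T.bas (dis_T va va) (fun _ => Far.perp_Tv T.grp va va)
    (fun L hL _ => sc_T T.grp hL (sc_a hL) (sc_a hL)) tk (tst_q t0) t3
    (U := fun L t => kp (t / L) * kp (-(t / L))) (W := fun L x => d2 x x * vL (32 * A * L) x)
    fun L hL t x => by
      have L0 := one_pos.trans_le hL
      rw [vL_sc L0, d2_smul, d2_smul_l, ← mul_assoc _ _ (d2 x x), ← mul_inv,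
        Real.mul_self_sqrt L0.le]
      field_simp) (star (jconj c.J X' * X) c.Om)
  have S : Sl c (jconj c.J X' * X) u0 A := fun L hL z => sp T.jc dd hA hX hX' hL
  have := (w.sub (nul_main T.grp T.cur T.bas S A0 t1 s1)).sub
    ((ward T S h0 hA hX hX' hk hR R0 R1).const_smul (4 : ℝ))
  refine tendsto_nhds_unique_of_eventuallyEq b (this.trans_eq ?_) ?_
  · simp
  filter_upwards [eventually_ge_atTop (1 : ℝ)] with L hL
  have L0 := one_pos.trans_le hL
  have tv := tst_q (tst_vL (M := 32 * A * L) (by positivity))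
  have e0 : ∀ t, chi t * (kp (t / L) * kp (-(t / L))) = uL L t := fun t => by
    rcases le_total t (-1 / 2) with h | h
    · rw [uL, chi0 h, zero_mul, zero_mul]
    · rw [uL, kp1 (t := -(t / L)) (neg_le.1 ((le_div_iff₀ L0).2 (by linarith))), mul_one]
  have tkL : Tst fun t => kp (t / L) * kp (-(t / L)) := by
    simpa only [smul_eq_mul, div_eq_inv_mul] using! Ap.cs_smul (inv_ne_zero L0.ne') tk
  have e1 := (dis_T (c := c) va va).tp (U := fun t => (1 - chi t) * (kp (t / L) * kp (-(t / L))))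
    (W := fun x => d2 x x * vL (32 * A * L) x) (-1) tkL tv (tst_uL L0) tv t3 fun t x => by
      rw [← e0]; ring
  rw [neg_one_smul, ← sub_eq_add_neg] at e1
  rw [sub_sub, ← map_smul, ← map_add, sub_add_cancel, lam_apply, ← sub_add, add_comm,
    ← inner_sub_right, ← e1, star_mul, ContinuousLinearMap.mul_apply, ContinuousLinearMap.mul_apply]
  unfold Ctx.om2
  congr 3 <;> funext m n z
  · simp only [bar, P352X.hk, pr, kL, k3, tp_apply, pl_1, pl_2, vL_sc L0, ← e0, star_mul',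
      Complex.star_def, Complex.conj_ofReal]
    push_cast
    ring
  · simp only [P352X.hk, pr, kL, k3, tp_apply, pl_1, pl_2, vL_sc L0]
    push_cast
    ring

end

end Vale.Agent.P352X.ZZ.EE
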